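import Mathlib
import Vale.Agent.Lib.P162.Defs
import Vale.Agent.Lib.P162.RDefs
import Vale.Agent.Lib.P162.CVDefs
import Vale.Agent.Lib.P162.helper36.MoveInj

/-!
Thorp shuffle, two-walker kernel Qmat: support of its powers on injective configurations,
and symmetry of its powers under exchanging the two walkers.
-/

namespace Vale.Agent.Lib.P162.H71CV

open Finset BigOperators

/-- A nonzero entry of the one-step matrix is witnessed by a coin vector. -/
theorem h71_Kmat_witness (h k : ℕ) [NeZero h] (z y : Fin k → ZMod (2 * h))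
    (hne : Kmat h k z y ≠ 0) : ∃ c : ZMod h → Bool, ∀ j, move h c (z j) = y j := by
  by_contra hcon
  apply hne
  have he : (univ.filter fun c : ZMod h → Bool => ∀ j, move h c (z j) = y j) = ∅ := by
    apply Finset.filter_eq_empty_iff.mpr
    intro c _ hc
    exact hcon ⟨c, hc⟩
  show ((univ.filter fun c : ZMod h → Bool => ∀ j, move h c (z j) = y j).card : ℝ) / 2 ^ h = 0
  rw [he, Finset.card_empty, Nat.cast_zero, zero_div]

/-- One step of the chain keeps an injective configuration injective. -/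
theorem h71_Kmat_inj (h k : ℕ) [NeZero h] (z y : Fin k → ZMod (2 * h))
    (hne : Kmat h k z y ≠ 0) (hz : Function.Injective z) : Function.Injective y := by
  obtain ⟨c, hc⟩ := h71_Kmat_witness h k z y hne
  intro a b hab
  apply hz
  apply H36.move_injective h c
  rw [hc a, hc b, hab]

/-- Injectivity of a tuple with a new first entry, in elementary form. -/
theorem h71_cons_inj_iff {α : Type*} {j : ℕ} (p : α) (w : Fin j → α) :
    Function.Injective (Fin.cons p w : Fin (j + 1) → α)
      ↔ Function.Injective w ∧ ∀ i, p ≠ w i := by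
  rw [Fin.cons_injective_iff]
  constructor
  · rintro ⟨h1, h2⟩
    exact ⟨h2, fun i hi => h1 ⟨i, hi.symm⟩⟩
  · rintro ⟨h1, h2⟩
    exact ⟨fun ⟨i, hi⟩ => h2 i hi.symm, h1⟩

/-- A tuple of length j + 2 written with its two first entries. -/
theorem h71_cons_cons_eta {α : Type*} {j : ℕ} (u : Fin (j + 2) → α) :
    (Fin.cons (u 0) (Fin.cons (Fin.tail u 0) (Fin.tail (Fin.tail u))) : Fin (j + 2) → α) = u := by
  rw [Fin.cons_self_tail, Fin.cons_self_tail]

/-- Sum over functions on Fin (k + 1) split along the first coordinate. -/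
theorem h71_sum_cons {α : Type*} [Fintype α] [DecidableEq α] (k : ℕ)
    (f : (Fin (k + 1) → α) → ℝ) :
    ∑ y : Fin (k + 1) → α, f y = ∑ q : α, ∑ y' : Fin k → α, f (Fin.cons q y') := by
  rw [← Fintype.sum_prod_type']
  exact (Fintype.sum_equiv (Fin.consEquiv (fun _ : Fin (k + 1) => α))
    (fun x : α × (Fin k → α) => f (Fin.cons x.1 x.2)) f (fun _ => rfl)).symm

/-- Sum over functions on Fin (k + 2) split along the two first coordinates. -/
theorem h71_sum_cons_cons {α : Type*} [Fintype α] [DecidableEq α] (k : ℕ)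
    (f : (Fin (k + 2) → α) → ℝ) :
    ∑ y : Fin (k + 2) → α, f y
      = ∑ a : α, ∑ b : α, ∑ x : Fin k → α, f (Fin.cons a (Fin.cons b x)) := by
  rw [h71_sum_cons (k + 1) f]
  refine Finset.sum_congr rfl (fun a _ => ?_)
  exact h71_sum_cons k (fun y => f (Fin.cons a y))

/-- Support of the powers of the two-walker kernel: started from two walkers that both avoid an
injective family of old cards, the old cards stay injective and both walkers keep avoiding
them. -/
theorem Qpow_support (h j : ℕ) [NeZero h] (t : ℕ) (p p' : ZMod (2 * h))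
    (w : Fin j → ZMod (2 * h))
    (hz : Function.Injective (Fin.cons p w : Fin (j + 1) → ZMod (2 * h)))
    (hz' : Function.Injective (Fin.cons p' w : Fin (j + 1) → ZMod (2 * h)))
    (q q' : ZMod (2 * h)) (v : Fin j → ZMod (2 * h))
    (hne : (Qmat h j ^ t) (Fin.cons p (Fin.cons p' w)) (Fin.cons q (Fin.cons q' v)) ≠ 0) :
    Function.Injective v ∧ (∀ i, q ≠ v i) ∧ (∀ i, q' ≠ v i) := by
  induction t generalizing q q' v with
  | zero =>
    rw [pow_zero, Matrix.one_apply] at hne
    have heq : (Fin.cons p (Fin.cons p' w) : Fin (j + 2) → ZMod (2 * h))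
        = Fin.cons q (Fin.cons q' v) := by
      by_contra hcon
      exact hne (if_neg hcon)
    have h1 := (Fin.cons_inj.mp heq)
    have h2 := (Fin.cons_inj.mp h1.2)
    have hq : q = p := h1.1.symm
    have hq' : q' = p' := h2.1.symm
    have hv : v = w := h2.2.symm
    rw [hq, hq', hv]
    have a1 := (h71_cons_inj_iff p w).mp hz
    have a2 := (h71_cons_inj_iff p' w).mp hz'
    exact ⟨a1.1, a1.2, a2.2⟩
  | succ t ih =>
    rw [pow_succ, Matrix.mul_apply] at hne
    obtain ⟨u, _, hu⟩ := Finset.exists_ne_zero_of_sum_ne_zero hne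
    have hu1 : (Qmat h j ^ t) (Fin.cons p (Fin.cons p' w)) u ≠ 0 := left_ne_zero_of_mul hu
    have hu2 : Qmat h j u (Fin.cons q (Fin.cons q' v)) ≠ 0 := right_ne_zero_of_mul hu
    rw [← h71_cons_cons_eta u] at hu1 hu2
    obtain ⟨hx, ha, hb⟩ := ih (u 0) (Fin.tail u 0) (Fin.tail (Fin.tail u)) hu1
    rw [Qmat_cons] at hu2
    have hk12 := (div_ne_zero_iff.mp hu2).1
    have hk1 := left_ne_zero_of_mul hk12
    have hk2 := right_ne_zero_of_mul hk12
    have i1 := h71_Kmat_inj h (j + 1) _ _ hk1
      ((h71_cons_inj_iff (u 0) (Fin.tail (Fin.tail u))).mpr ⟨hx, ha⟩)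
    have i2 := h71_Kmat_inj h (j + 1) _ _ hk2
      ((h71_cons_inj_iff (Fin.tail u 0) (Fin.tail (Fin.tail u))).mpr ⟨hx, hb⟩)
    have a1 := (h71_cons_inj_iff q v).mp i1
    have a2 := (h71_cons_inj_iff q' v).mp i2
    exact ⟨a1.1, a1.2, a2.2⟩

/-- The powers of the two-walker kernel are symmetric under exchanging the two walkers. -/
theorem Qpow_swap (h j : ℕ) [NeZero h] (t : ℕ) (p p' q q' : ZMod (2 * h))
    (w v : Fin j → ZMod (2 * h)) :
    (Qmat h j ^ t) (Fin.cons p (Fin.cons p' w)) (Fin.cons q (Fin.cons q' v))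
      = (Qmat h j ^ t) (Fin.cons p' (Fin.cons p w)) (Fin.cons q' (Fin.cons q v)) := by
  induction t generalizing p p' w with
  | zero =>
    rw [pow_zero, Matrix.one_apply, Matrix.one_apply]
    refine if_congr ?_ rfl rfl
    rw [Fin.cons_inj, Fin.cons_inj, Fin.cons_inj, Fin.cons_inj]
    tauto
  | succ t ih =>
    rw [pow_succ', Matrix.mul_apply, Matrix.mul_apply, h71_sum_cons_cons, h71_sum_cons_cons,
      Finset.sum_comm]
    refine Finset.sum_congr rfl (fun b _ => ?_)
    refine Finset.sum_congr rfl (fun a _ => ?_)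
    refine Finset.sum_congr rfl (fun x _ => ?_)
    rw [Qmat_cons, Qmat_cons, ih a b x, mul_comm (Kmat h (j + 1) (Fin.cons p w) (Fin.cons a x))]

end Vale.Agent.Lib.P162.H71CV
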