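import Mathlib
import Vale.Agent.Lib.P162.Defs
import Vale.Agent.Lib.P162.Law

/-!
# P162, job K: the `T`-shuffle law of the tracked cards is the `T`-th power of the kernel

Induction on `T`: the coin sequences `Fin (T + 1) → C` are the pairs (first coin vector, the
remaining `T` coin vectors), and the first shuffle moves the tracked cards to
`u = fun j => move h c (x j)`.

All definitions of `Defs.lean` and `Law.lean` are unfolded by `rfl` only (no equation lemma of
`shuffles`, `trackedLaw`, `stepProb` or `Kmat` is generated in this file).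
-/

namespace Vale.Agent.Lib.P162.H71

open Finset BigOperators

/-- The law after `T + 1` shuffles is the average over the first coin vector. -/
theorem h71_law_succ (h k : ℕ) [NeZero h] (T : ℕ) (x y : Fin k → ZMod (2 * h)) :
    trackedLaw h k (T + 1) x y
      = (∑ c : ZMod h → Bool, trackedLaw h k T (fun j => move h c (x j)) y) / 2 ^ h := by
  have e1 : trackedLaw h k (T + 1) x y
      = ((univ.filter fun cs : Fin (T + 1) → ZMod h → Bool =>
          ∀ j, shuffles h T (fun i => cs i.succ) (move h (cs 0) (x j)) = y j).card : ℝ)
        / 2 ^ (h * (T + 1)) := rfl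
  have e2 : ∀ c : ZMod h → Bool, trackedLaw h k T (fun j => move h c (x j)) y
      = ((univ.filter fun cs : Fin T → ZMod h → Bool =>
          ∀ j, shuffles h T cs (move h c (x j)) = y j).card : ℝ) / 2 ^ (h * T) := fun c => rfl
  have hcard : (univ.filter fun cs : Fin (T + 1) → ZMod h → Bool =>
        ∀ j, shuffles h T (fun i => cs i.succ) (move h (cs 0) (x j)) = y j).card
      = ∑ c : ZMod h → Bool, (univ.filter fun cs : Fin T → ZMod h → Bool =>
          ∀ j, shuffles h T cs (move h c (x j)) = y j).card := by
    simp only [Finset.card_filter]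
    refine ((Equiv.sum_comp (Fin.consEquiv (fun _ : Fin (T + 1) => ZMod h → Bool)) _).symm.trans ?_)
    rw [Fintype.sum_prod_type]
    refine Finset.sum_congr rfl fun c _ => Finset.sum_congr rfl fun cs' _ => ?_
    simp only [Fin.consEquiv_apply, Fin.cons_zero, Fin.cons_succ]
  have hpow : (2 : ℝ) ^ (h * (T + 1)) = 2 ^ (h * T) * 2 ^ h := by
    rw [← pow_add]
    congr 1
  have e2' : (∑ c : ZMod h → Bool, trackedLaw h k T (fun j => move h c (x j)) y)
      = ∑ c : ZMod h → Bool, ((univ.filter fun cs : Fin T → ZMod h → Bool =>
          ∀ j, shuffles h T cs (move h c (x j)) = y j).card : ℝ) / 2 ^ (h * T) :=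
    Finset.sum_congr rfl fun c _ => e2 c
  rw [e1, hcard, hpow, e2', ← Finset.sum_div, div_div, Nat.cast_sum]

theorem law_eq_pow (h k : ℕ) [NeZero h] (T : ℕ) (x y : Fin k → ZMod (2 * h)) :
    trackedLaw h k T x y = (Kmat h k ^ T) x y := by
  induction T generalizing x with
  | zero =>
    have e0 : trackedLaw h k 0 x y
        = ((univ.filter fun _cs : Fin 0 → ZMod h → Bool => ∀ j, x j = y j).card : ℝ)
          / 2 ^ (h * 0) := rfl
    rw [e0, pow_zero, Matrix.one_apply, mul_zero, pow_zero, div_one]
    by_cases hxy : x = y
    · rw [if_pos hxy]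
      have hf : (univ.filter fun _cs : Fin 0 → ZMod h → Bool => ∀ j, x j = y j) = univ := by
        apply Finset.filter_true_of_mem
        intro _ _ j
        rw [hxy]
      rw [hf, Finset.card_univ]
      simp
    · rw [if_neg hxy]
      have hf : (univ.filter fun _cs : Fin 0 → ZMod h → Bool => ∀ j, x j = y j) = ∅ := by
        apply Finset.filter_false_of_mem
        intro _ _ hall
        exact hxy (funext hall)
      rw [hf]
      simp
  | succ T ih =>
    rw [h71_law_succ, pow_succ', Matrix.mul_apply]
    have eK : ∀ u : Fin k → ZMod (2 * h), Kmat h k x u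
        = ((univ.filter fun c : ZMod h → Bool => ∀ j, move h c (x j) = u j).card : ℝ)
          / 2 ^ h := fun u => rfl
    have key : ∀ u : Fin k → ZMod (2 * h),
        ((univ.filter fun c : ZMod h → Bool => ∀ j, move h c (x j) = u j).card : ℝ)
        = ∑ c : ZMod h → Bool, if (fun j => move h c (x j)) = u then (1 : ℝ) else 0 := by
      intro u
      rw [Finset.card_filter, Nat.cast_sum]
      refine Finset.sum_congr rfl fun c _ => ?_
      by_cases hc : (fun j => move h c (x j)) = u
      · rw [if_pos hc, if_pos (fun j => congrFun hc j), Nat.cast_one]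
      · rw [if_neg hc, if_neg (fun hall => hc (funext hall)), Nat.cast_zero]
    have hR : ∑ u : Fin k → ZMod (2 * h), Kmat h k x u * (Kmat h k ^ T) u y
        = (∑ u : Fin k → ZMod (2 * h),
            ((univ.filter fun c : ZMod h → Bool => ∀ j, move h c (x j) = u j).card : ℝ)
              * trackedLaw h k T u y) / 2 ^ h := by
      rw [Finset.sum_div]
      refine Finset.sum_congr rfl fun u _ => ?_
      rw [eK, ← ih u]
      ring
    have hRHS : ∑ u : Fin k → ZMod (2 * h),
          ((univ.filter fun c : ZMod h → Bool => ∀ j, move h c (x j) = u j).card : ℝ)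
            * trackedLaw h k T u y
        = ∑ u : Fin k → ZMod (2 * h), ∑ c : ZMod h → Bool,
            (if (fun j => move h c (x j)) = u then trackedLaw h k T u y else 0) := by
      refine Finset.sum_congr rfl fun u _ => ?_
      rw [key u, Finset.sum_mul]
      refine Finset.sum_congr rfl fun c _ => ?_
      by_cases hc : (fun j => move h c (x j)) = u
      · rw [if_pos hc, if_pos hc, one_mul]
      · rw [if_neg hc, if_neg hc, zero_mul]
    rw [hR]
    congr 1
    rw [hRHS, Finset.sum_comm]
    refine Finset.sum_congr rfl fun c _ => ?_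
    rw [Finset.sum_ite_eq, if_pos (Finset.mem_univ _)]

end Vale.Agent.Lib.P162.H71
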