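import Mathlib
import Vale.Agent.Lib.P162.Defs

/-!
# P162, job A: two stochastic matrices that agree off a bad set

If the rows of `A` and `B` agree at every state outside `bd`, then the `l_1` distance between
the `m`-step laws from `μ` is at most twice the total mass that the `A`-chain puts on `bd`
during the first `m` steps.
-/

namespace Vale.Agent.Lib.P162.H71

open Finset BigOperators

theorem h71_pow_nonneg {S : Type*} [Fintype S] [DecidableEq S] (A : Matrix S S ℝ)
    (hA : ∀ z y, 0 ≤ A z y) (m : ℕ) : ∀ z y, 0 ≤ (A ^ m) z y := by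
  induction m with
  | zero =>
    intro z y
    rw [pow_zero, Matrix.one_apply]
    split_ifs <;> norm_num
  | succ m ih =>
    intro z y
    rw [pow_succ, Matrix.mul_apply]
    exact Finset.sum_nonneg fun x _ => mul_nonneg (ih z x) (hA x y)

theorem h71_vecMul_nonneg {S : Type*} [Fintype S] (M : Matrix S S ℝ)
    (hM : ∀ z y, 0 ≤ M z y) (μ : S → ℝ) (hμ : ∀ z, 0 ≤ μ z) (y : S) :
    0 ≤ Matrix.vecMul μ M y := by
  simp only [Matrix.vecMul, dotProduct]
  exact Finset.sum_nonneg fun x _ => mul_nonneg (hμ x) (hM x y)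

theorem tv_compare {S : Type*} [Fintype S] [DecidableEq S] (A B : Matrix S S ℝ)
    (hA : ∀ z y, 0 ≤ A z y) (hA1 : ∀ z, ∑ y, A z y = 1)
    (hB : ∀ z y, 0 ≤ B z y) (hB1 : ∀ z, ∑ y, B z y = 1)
    (bd : S → Prop) [DecidablePred bd] (hAB : ∀ z, ¬ bd z → A z = B z)
    (μ : S → ℝ) (hμ : ∀ z, 0 ≤ μ z) (m : ℕ) :
    ∑ y, |(Matrix.vecMul μ (A ^ m)) y - (Matrix.vecMul μ (B ^ m)) y|
      ≤ 2 * ∑ i ∈ range m, ∑ z ∈ univ.filter bd, (Matrix.vecMul μ (A ^ i)) z := by
  induction m with
  | zero => simp
  | succ m ih =>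
    have ha0 : ∀ z, 0 ≤ Matrix.vecMul μ (A ^ m) z := fun z =>
      h71_vecMul_nonneg _ (h71_pow_nonneg A hA m) μ hμ z
    have eA : Matrix.vecMul μ (A ^ (m + 1)) = Matrix.vecMul (Matrix.vecMul μ (A ^ m)) A := by
      rw [pow_succ, ← Matrix.vecMul_vecMul]
    have eB : Matrix.vecMul μ (B ^ (m + 1)) = Matrix.vecMul (Matrix.vecMul μ (B ^ m)) B := by
      rw [pow_succ, ← Matrix.vecMul_vecMul]
    rw [eA, eB, Finset.sum_range_succ, mul_add]
    generalize Matrix.vecMul μ (A ^ m) = a at ha0 ih ⊢
    generalize Matrix.vecMul μ (B ^ m) = b at ih ⊢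
    have hpt : ∀ y, |Matrix.vecMul a A y - Matrix.vecMul b B y|
        ≤ ∑ z, a z * |A z y - B z y| + ∑ z, |a z - b z| * B z y := by
      intro y
      have e : Matrix.vecMul a A y - Matrix.vecMul b B y
          = ∑ z, a z * (A z y - B z y) + ∑ z, (a z - b z) * B z y := by
        simp only [Matrix.vecMul, dotProduct]
        rw [← Finset.sum_add_distrib, ← Finset.sum_sub_distrib]
        exact Finset.sum_congr rfl fun z _ => by ring
      rw [e]
      calc |∑ z, a z * (A z y - B z y) + ∑ z, (a z - b z) * B z y|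
          ≤ |∑ z, a z * (A z y - B z y)| + |∑ z, (a z - b z) * B z y| := abs_add_le _ _
        _ ≤ ∑ z, |a z * (A z y - B z y)| + ∑ z, |(a z - b z) * B z y| :=
            add_le_add (Finset.abs_sum_le_sum_abs _ _) (Finset.abs_sum_le_sum_abs _ _)
        _ = ∑ z, a z * |A z y - B z y| + ∑ z, |a z - b z| * B z y := by
            congr 1
            · exact Finset.sum_congr rfl fun z _ => by rw [abs_mul, abs_of_nonneg (ha0 z)]
            · exact Finset.sum_congr rfl fun z _ => by rw [abs_mul, abs_of_nonneg (hB z y)]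
    have hrow : ∀ z, ∑ y, |A z y - B z y| ≤ if bd z then 2 else 0 := by
      intro z
      by_cases hz : bd z
      · rw [if_pos hz]
        calc ∑ y, |A z y - B z y| ≤ ∑ y, (A z y + B z y) :=
              Finset.sum_le_sum fun y _ => by
                rw [abs_le]
                constructor <;> linarith [hA z y, hB z y]
          _ = 2 := by
              rw [Finset.sum_add_distrib, hA1, hB1]
              norm_num
      · rw [if_neg hz, hAB z hz]
        simp
    calc ∑ y, |Matrix.vecMul a A y - Matrix.vecMul b B y|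
        ≤ ∑ y, (∑ z, a z * |A z y - B z y| + ∑ z, |a z - b z| * B z y) :=
          Finset.sum_le_sum fun y _ => hpt y
      _ = ∑ z, a z * ∑ y, |A z y - B z y| + ∑ z, |a z - b z| * ∑ y, B z y := by
          rw [Finset.sum_add_distrib, Finset.sum_comm,
            Finset.sum_comm (f := fun y z => |a z - b z| * B z y)]
          simp only [Finset.mul_sum]
      _ ≤ ∑ z, a z * (if bd z then 2 else 0) + ∑ z, |a z - b z| := by
          apply add_le_add
          · exact Finset.sum_le_sum fun z _ => mul_le_mul_of_nonneg_left (hrow z) (ha0 z)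
          · simp only [hB1, mul_one]
            exact le_rfl
      _ = 2 * ∑ z ∈ univ.filter bd, a z + ∑ z, |a z - b z| := by
          congr 1
          rw [Finset.mul_sum, Finset.sum_filter]
          exact Finset.sum_congr rfl fun z _ => by split_ifs <;> ring
      _ ≤ 2 * ∑ i ∈ range m, ∑ z ∈ univ.filter bd, Matrix.vecMul μ (A ^ i) z
            + 2 * ∑ z ∈ univ.filter bd, a z := by linarith

end Vale.Agent.Lib.P162.H71
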